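import Vale.Agent.Lib.P194.Classes

/-!
# P194: direct finiteness for factors with small or structured support

Let `K` be a field, `G` an arbitrary group and `a * b = 1` in `K[G]`.  Then `b * a = 1` as soon
as the support of `a` lies in a left coset `g H`, or the support of `b` in a right coset `H g`,
of a subgroup `H` that is abelian, finite, or has the unique-product property.  In particular
this holds whenever `a` or `b` has at most two elements in its support.
-/

namespace Vale.Agent.Results.P194.SmallSupport

universe u v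

open Vale.Agent.Lib.P194

theorem result (K : Type u) [Field K] (G : Type v) [Group G] (a b : MonoidAlgebra K G)
    (hab : a * b = 1) :
    ((∃ H : Subgroup G,
        ((∀ x ∈ H, ∀ y ∈ H, x * y = y * x) ∨ Finite H ∨ UniqueProds H) ∧
        ((∃ g : G, ∀ x ∈ a.coeff.support, g⁻¹ * x ∈ H) ∨
          (∃ g : G, ∀ x ∈ b.coeff.support, x * g⁻¹ ∈ H))) → b * a = 1) ∧
    ((a.coeff.support.card ≤ 2 ∨ b.coeff.support.card ≤ 2) → b * a = 1) := by
  have main : (∃ H : Subgroup G,
        ((∀ x ∈ H, ∀ y ∈ H, x * y = y * x) ∨ Finite H ∨ UniqueProds H) ∧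
        ((∃ g : G, ∀ x ∈ a.coeff.support, g⁻¹ * x ∈ H) ∨
          (∃ g : G, ∀ x ∈ b.coeff.support, x * g⁻¹ ∈ H))) → b * a = 1 := by
    rintro ⟨H, hclass, hsupp⟩
    have hH : ∀ x y : MonoidAlgebra K H, x * y = 1 → y * x = 1 := by
      rcases hclass with hc | hf | hu
      · exact dedekind_of_comm H hc
      · exact dedekind_of_finite H hf
      · exact dedekind_of_uniqueProds H hu
    exact mul_eq_one_symm_of_coset H hH a b hab hsupp
  refine ⟨main, ?_⟩
  rintro (h | h)
  · obtain ⟨H, hc, hg⟩ := left_coset_of_card_le_two a.coeff.support h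
    exact main ⟨H, Or.inl hc, Or.inl hg⟩
  · obtain ⟨H, hc, hg⟩ := right_coset_of_card_le_two b.coeff.support h
    exact main ⟨H, Or.inl hc, Or.inr hg⟩

end Vale.Agent.Results.P194.SmallSupport
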