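import Vale.Agent.Lib.P194.Classes

/-!
# P194: one-sided inverses with support in a coset of a subgroup

Let `K` be a field, `G` a group and `H` a subgroup of `G` whose group algebra `K[H]` is directly
finite.  If `a * b = 1` in `K[G]` and the support of `a` lies in a left coset `g H` (or the
support of `b` lies in a right coset `H g`), then `b * a = 1`.  No hypothesis is made on `G` or
on the other factor.  So a failure of direct finiteness `a * b = 1`, `b * a ≠ 1` forces the
subgroups generated by `x⁻¹ y`, `x, y ∈ supp a`, and by `x y⁻¹`, `x, y ∈ supp b`, to have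
group algebras that are not directly finite.
-/

namespace Vale.Agent.Results.P194.SupportInCoset

universe u v

theorem result (K : Type u) [Field K] (G : Type v) [Group G] (H : Subgroup G)
    (hH : ∀ x y : MonoidAlgebra K H, x * y = 1 → y * x = 1)
    (a b : MonoidAlgebra K G) (hab : a * b = 1)
    (hsupp : (∃ g : G, ∀ x ∈ a.coeff.support, g⁻¹ * x ∈ H) ∨
      (∃ g : G, ∀ x ∈ b.coeff.support, x * g⁻¹ ∈ H)) :
    b * a = 1 :=
  Vale.Agent.Lib.P194.mul_eq_one_symm_of_coset H hH a b hab hsupp

end Vale.Agent.Results.P194.SupportInCoset
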