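import Mathlib

/-!
# P194: direct finiteness of group algebras of unique-product and left-orderable groups

For every field `K` and every group `G` with the unique-product property (for all nonempty
finite `A, B ⊆ G` some product `a * b` is represented exactly once), the group algebra `K[G]`
is directly finite.  In particular this holds for every left-orderable group, that is, every
group with a strict total order invariant under left multiplication.  The proof goes through
the absence of zero divisors in `K[G]`.
-/

namespace Vale.Agent.Results.P194.UniqueProductGroups

universe u v

theorem result (K : Type u) [Field K] (G : Type v) [Group G] (a b : MonoidAlgebra K G)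
    (hab : a * b = 1) :
    (UniqueProds G → b * a = 1) ∧
    ((∃ lt : G → G → Prop, IsStrictTotalOrder G lt ∧ ∀ g x y : G, lt x y → lt (g * x) (g * y)) →
      b * a = 1) := by
  have main : UniqueProds G → b * a = 1 := by
    intro hup
    exact mul_eq_one_symm hab
  refine ⟨main, ?_⟩
  rintro ⟨lt, hsto, hinv⟩
  classical
  letI : LinearOrder G := linearOrderOfSTO lt
  have hmono : MulLeftStrictMono G := ⟨fun g x y hxy => hinv g x y hxy⟩
  exact main inferInstance

end Vale.Agent.Results.P194.UniqueProductGroups
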